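import Mathlib

/-! Finite CW structures from explicit characteristic maps. -/

set_option autoImplicit false

noncomputable section

namespace Crest.Agent.Lib.TwoComplex

open unitInterval Set Topology Metric

variable {X : Type} [TopologicalSpace X] [T2Space X]

lemma continuousOn_symm_of_inj {n : ℕ} (c : C(Fin n → ℝ, X))
    (hinj : ∀ x ∈ ball (0 : Fin n → ℝ) 1, ∀ y ∈ closedBall (0 : Fin n → ℝ) 1, c x = c y → x = y)
    (h : InjOn c (ball 0 1)) :
    ContinuousOn (h.toPartialEquiv c (ball 0 1)).symm (h.toPartialEquiv c (ball 0 1)).target := by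
  set P := h.toPartialEquiv c (ball 0 1) with hP
  rw [continuousOn_iff_isClosed]
  intro F hF
  refine ⟨c '' (F ∩ closedBall 0 1),
    (((isCompact_closedBall (0 : Fin n → ℝ) 1).inter_left hF).image c.continuous).isClosed, ?_⟩
  ext z
  constructor
  · rintro ⟨hz1, hz2⟩
    exact ⟨⟨P.symm z, ⟨hz1, ball_subset_closedBall (P.map_target hz2)⟩, P.right_inv hz2⟩, hz2⟩
  · rintro ⟨⟨y, ⟨hy1, hy2⟩, rfl⟩, hz2⟩
    refine ⟨?_, hz2⟩
    have h1 : P.symm (c y) = y := hinj _ (P.map_target hz2) _ hy2 (P.right_inv hz2)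
    rw [mem_preimage, h1]
    exact hy1

theorem exists_cw (cell : ℕ → Type) (c : ∀ n, cell n → C(Fin n → ℝ, X)) (d : ℕ)
    (hd : ∀ n, d < n → IsEmpty (cell n)) (hfin : ∀ n, Finite (cell n))
    (hinj : ∀ n i, ∀ x ∈ ball (0 : Fin n → ℝ) 1, ∀ y ∈ closedBall (0 : Fin n → ℝ) 1,
      c n i x = c n i y → x = y)
    (hdisj : (univ : Set (Σ n, cell n)).PairwiseDisjoint (fun ni ↦ c ni.1 ni.2 '' ball 0 1))
    (hmaps : ∀ n i, MapsTo (c n i) (sphere 0 1) (⋃ (m < n) (j : cell m), c m j '' closedBall 0 1))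
    (hun : ⋃ (n : ℕ) (j : cell n), c n j '' closedBall 0 1 = univ) :
    ∃ _ : CWComplex (univ : Set X), RelCWComplex.Finite (univ : Set X) ∧
      ∀ n, d < n → IsEmpty (RelCWComplex.cell (univ : Set X) n) := by
  have hi : ∀ n i, InjOn (c n i) (ball 0 1) := fun n i x hx y hy h =>
    hinj n i x hx y (ball_subset_closedBall hy) h
  have hev : ∀ᶠ n in Filter.atTop, IsEmpty (cell n) :=
    (Filter.eventually_gt_atTop d).mono hd
  refine ⟨CWComplex.mkFinite univ cell (fun n i => (hi n i).toPartialEquiv (c n i) (ball 0 1)) hev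
    hfin (fun _ _ => rfl) (fun n i => (c n i).continuous.continuousOn)
    (fun n i => continuousOn_symm_of_inj (c n i) (hinj n i) (hi n i)) hdisj hmaps hun,
    CWComplex.finite_mkFinite _ _ _ _ _ _ _ _ _ _ _, hd⟩

/-- from `[-1, 1]` to the unit interval -/
def pr (y : ℝ) : I := projIcc 0 1 zero_le_one ((y + 1) / 2)

lemma continuous_pr : Continuous pr := continuous_projIcc.comp (by fun_prop)

lemma pr_coe {y : ℝ} (h : |y| ≤ 1) : (pr y : ℝ) = (y + 1) / 2 := by
  rw [abs_le] at h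
  rw [pr, projIcc_of_mem _ ⟨by linarith, by linarith⟩]

lemma pr_inv (r : I) : pr (2 * r - 1) = r := by
  apply Subtype.ext
  rw [pr_coe (abs_le.mpr ⟨by linarith [r.2.1], by linarith [r.2.2]⟩)]
  ring

/-- interior points of the interval -/
def Int (r : I) : Prop := 0 < (r : ℝ) ∧ (r : ℝ) < 1

lemma int_pr {y : ℝ} (h : |y| < 1) : Int (pr y) := by
  unfold Int
  rw [pr_coe h.le]
  rw [abs_lt] at h
  constructor <;> linarith

lemma not_int_pr {y : ℝ} (h : |y| = 1) : ¬ Int (pr y) := by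
  unfold Int
  rw [pr_coe h.le]
  rcases abs_eq (zero_le_one) |>.mp h with rfl | rfl <;> norm_num

lemma pr_inj {y y' : ℝ} (h : |y| ≤ 1) (h' : |y'| ≤ 1) (e : pr y = pr y') : y = y' := by
  have := congrArg Subtype.val e
  rw [pr_coe h, pr_coe h'] at this
  linarith

lemma not_int_iff (r : I) : ¬ Int r ↔ r = 0 ∨ r = 1 := by
  unfold Int
  constructor
  · intro h
    rcases r.2.1.eq_or_lt with h0 | h0
    · exact Or.inl (Subtype.ext h0.symm)
    · rcases r.2.2.eq_or_lt with h1 | h1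
      · exact Or.inr (Subtype.ext h1)
      · exact absurd ⟨h0, h1⟩ h
  · rintro (rfl | rfl) <;> simp

/-- the cells of a 2-complex with one vertex -/
def cell2 (α T : Type) : ℕ → Type
  | 0 => Unit
  | 1 => α
  | 2 => T
  | _ + 3 => Empty

/-- the characteristic maps -/
def char2 {α T : Type} (x0 : X) (χ1 : α → C(I, X)) (χ2 : T → C(I × I, X)) :
    ∀ n, cell2 α T n → C(Fin n → ℝ, X)
  | 0, _ => .const _ x0
  | 1, s => ⟨fun x => χ1 s (pr (x 0)), by have := continuous_pr; fun_prop⟩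
  | 2, t => ⟨fun x => χ2 t (pr (x 0), pr (x 1)), by have := continuous_pr; fun_prop⟩
  | _ + 3, e => Empty.elim e

lemma abs_lt_of_ball {n : ℕ} {x : Fin n → ℝ} (hx : x ∈ ball (0 : Fin n → ℝ) 1) (i : Fin n) :
    |x i| < 1 :=
  (pi_norm_lt_iff one_pos).mp (mem_ball_zero_iff.mp hx) i

lemma abs_le_of_closedBall {n : ℕ} {x : Fin n → ℝ} (hx : x ∈ closedBall (0 : Fin n → ℝ) 1)
    (i : Fin n) : |x i| ≤ 1 :=
  (pi_norm_le_iff_of_nonneg zero_le_one).mp (mem_closedBall_zero_iff.mp hx) i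

lemma exists_abs_eq_of_sphere {n : ℕ} {x : Fin n → ℝ} (hx : x ∈ sphere (0 : Fin n → ℝ) 1) :
    ∃ i, |x i| = 1 := by
  by_contra h
  push Not at h
  have h1 : ‖x‖ < 1 := (pi_norm_lt_iff one_pos).mpr fun i =>
    lt_of_le_of_ne (abs_le_of_closedBall (sphere_subset_closedBall hx) i) (h i)
  rw [mem_sphere_zero_iff_norm] at hx
  linarith

theorem exists_cw2 {α T : Type} [Finite α] [Finite T] (x0 : X) (χ1 : α → C(I, X))
    (χ2 : T → C(I × I, X)) (h1 : ∀ s r, ¬ Int r → χ1 s r = x0)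
    (h2 : ∀ t u r, ¬ (Int u ∧ Int r) → ∃ s r', χ2 t (u, r) = χ1 s r')
    (inj1 : ∀ s s' r r', Int r → χ1 s r = χ1 s' r' → s = s' ∧ r = r')
    (ne10 : ∀ s r, Int r → χ1 s r ≠ x0)
    (inj2 : ∀ t t' u r y, Int u → Int r → χ2 t (u, r) = χ2 t' y → t = t' ∧ (u, r) = y)
    (ne20 : ∀ t u r, Int u → Int r → χ2 t (u, r) ≠ x0)
    (ne21 : ∀ t u r s r', Int u → Int r → χ2 t (u, r) ≠ χ1 s r')
    (cover : ∀ x, x = x0 ∨ (∃ s r, x = χ1 s r) ∨ ∃ t y, x = χ2 t y) :
    ∃ _ : CWComplex (univ : Set X), RelCWComplex.Finite (univ : Set X) ∧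
      ∀ n, 2 < n → IsEmpty (RelCWComplex.cell (univ : Set X) n) := by
  have c0 : x0 ∈ char2 x0 χ1 χ2 0 () '' closedBall 0 1 := ⟨0, by simp, rfl⟩
  have c1 : ∀ s r, χ1 s r ∈ char2 x0 χ1 χ2 1 s '' closedBall 0 1 := by
    intro s r
    refine ⟨fun _ => 2 * r - 1, ?_, ?_⟩
    · rw [mem_closedBall_zero_iff, pi_norm_le_iff_of_nonneg zero_le_one]
      intro _
      exact abs_le.mpr ⟨by linarith [r.2.1], by linarith [r.2.2]⟩
    · simp [char2, pr_inv]
  have c2 : ∀ t y, χ2 t y ∈ char2 x0 χ1 χ2 2 t '' closedBall 0 1 := by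
    rintro t ⟨u, r⟩
    refine ⟨![2 * u - 1, 2 * r - 1], ?_, ?_⟩
    · rw [mem_closedBall_zero_iff, pi_norm_le_iff_of_nonneg zero_le_one]
      intro i
      fin_cases i
      · exact abs_le.mpr ⟨by simp; linarith [u.2.1], by simp; linarith [u.2.2]⟩
      · exact abs_le.mpr ⟨by simp; linarith [r.2.1], by simp; linarith [r.2.2]⟩
    · simp [char2, pr_inv]
  refine exists_cw (cell2 α T) (char2 x0 χ1 χ2) 2 ?_ ?_ ?_ ?_ ?_ ?_
  · intro n hn
    obtain ⟨m, rfl⟩ : ∃ m, n = m + 3 := ⟨n - 3, by omega⟩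
    exact inferInstanceAs (IsEmpty Empty)
  · intro n
    match n with
    | 0 => exact inferInstanceAs (Finite Unit)
    | 1 => exact inferInstanceAs (Finite α)
    | 2 => exact inferInstanceAs (Finite T)
    | _ + 3 => exact inferInstanceAs (Finite Empty)
  · intro n i x hx y hy h
    match n, i with
    | 0, _ => exact Subsingleton.elim _ _
    | 1, s =>
      have h3 := (inj1 _ _ _ _ (int_pr (abs_lt_of_ball hx 0)) h).2
      funext j
      fin_cases j
      exact pr_inj (abs_lt_of_ball hx 0).le (abs_le_of_closedBall hy 0) h3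
    | 2, t =>
      have h3 := (inj2 _ _ _ _ _ (int_pr (abs_lt_of_ball hx 0)) (int_pr (abs_lt_of_ball hx 1)) h).2
      rw [Prod.mk.injEq] at h3
      funext j
      fin_cases j
      · exact pr_inj (abs_lt_of_ball hx 0).le (abs_le_of_closedBall hy 0) h3.1
      · exact pr_inj (abs_lt_of_ball hx 1).le (abs_le_of_closedBall hy 1) h3.2
    | _ + 3, e => exact Empty.elim e
  · rintro ⟨n, i⟩ - ⟨m, j⟩ - hne
    rw [Function.onFun, Set.disjoint_left]
    rintro z ⟨x, hx, rfl⟩ ⟨y, hy, h⟩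
    match n, i, m, j with
    | 0, _, 0, _ => exact hne rfl
    | 0, _, 1, s => exact ne10 _ _ (int_pr (abs_lt_of_ball hy 0)) h
    | 0, _, 2, t =>
      exact ne20 _ _ _ (int_pr (abs_lt_of_ball hy 0)) (int_pr (abs_lt_of_ball hy 1)) h
    | 1, s, 0, _ => exact ne10 _ _ (int_pr (abs_lt_of_ball hx 0)) h.symm
    | 1, s, 1, s' =>
      obtain rfl : s' = s := (inj1 _ _ _ _ (int_pr (abs_lt_of_ball hy 0)) h).1
      exact hne rfl
    | 1, s, 2, t =>
      exact ne21 _ _ _ _ _ (int_pr (abs_lt_of_ball hy 0)) (int_pr (abs_lt_of_ball hy 1)) h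
    | 2, t, 0, _ =>
      exact ne20 _ _ _ (int_pr (abs_lt_of_ball hx 0)) (int_pr (abs_lt_of_ball hx 1)) h.symm
    | 2, t, 1, s =>
      exact ne21 _ _ _ _ _ (int_pr (abs_lt_of_ball hx 0)) (int_pr (abs_lt_of_ball hx 1)) h.symm
    | 2, t, 2, t' =>
      obtain rfl : t' = t :=
        (inj2 _ _ _ _ _ (int_pr (abs_lt_of_ball hy 0)) (int_pr (abs_lt_of_ball hy 1)) h).1
      exact hne rfl
    | _ + 3, e, _, _ => exact Empty.elim e
    | _, _, _ + 3, e => exact Empty.elim e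
  · intro n i x hx
    obtain ⟨k, hk⟩ := exists_abs_eq_of_sphere hx
    simp only [mem_iUnion]
    match n, i with
    | 0, _ => exact k.elim0
    | 1, s =>
      refine ⟨0, one_pos, (), ?_⟩
      obtain rfl : k = 0 := Subsingleton.elim _ _
      have : char2 x0 χ1 χ2 1 s x = x0 := h1 _ _ (not_int_pr hk)
      rw [this]
      exact c0
    | 2, t =>
      have h3 : ¬ (Int (pr (x 0)) ∧ Int (pr (x 1))) := by
        rintro ⟨h4, h5⟩
        fin_cases k
        · exact not_int_pr hk h4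
        · exact not_int_pr hk h5
      obtain ⟨s, r', h4⟩ := h2 t _ _ h3
      refine ⟨1, one_lt_two, s, ?_⟩
      have : char2 x0 χ1 χ2 2 t x = χ1 s r' := h4
      rw [this]
      exact c1 s r'
    | _ + 3, e => exact Empty.elim e
  · apply eq_univ_of_forall
    intro x
    simp only [mem_iUnion]
    rcases cover x with rfl | ⟨s, r, rfl⟩ | ⟨t, y, rfl⟩
    · exact ⟨0, (), c0⟩
    · exact ⟨1, s, c1 s r⟩
    · exact ⟨2, t, c2 t y⟩

end Crest.Agent.Lib.TwoComplex
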