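import Crest.Agent.Lib.TwoComplex.Whisker

/-! A simply connected triangular 2-complex with vanishing second cohomology is contractible. -/

set_option autoImplicit false

noncomputable section

namespace Crest.Agent.Lib.TwoComplex

open unitInterval Set Topology ContinuousMap

/-- A space built from vertices, edges and triangles, given by its universal property.  A triangle
is a homotopy from the concatenation of two edges to a third edge. -/
structure Tri2 (E : Type) [TopologicalSpace E] where
  V : Type
  Ed : V → V → Type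
  Tr : V → V → V → Type
  ea : ∀ {u v w}, Tr u v w → Ed u v
  eb : ∀ {u v w}, Tr u v w → Ed v w
  ec : ∀ {u v w}, Tr u v w → Ed u w
  vtx : V → E
  ep : ∀ {u v}, Ed u v → Path (vtx u) (vtx v)
  tp : ∀ {u v w} (t : Tr u v w), ((ep (ea t)).trans (ep (eb t))).Homotopy (ep (ec t))
  univ : ∀ (Z : Type) [TopologicalSpace Z] (z : V → Z) (p : ∀ {u v}, Ed u v → Path (z u) (z v))
    (h : ∀ {u v w} (t : Tr u v w), ((p (ea t)).trans (p (eb t))).Homotopy (p (ec t))),
    ∃ F : C(E, Z), (∀ v, F (vtx v) = z v) ∧ (∀ u v (e : Ed u v) r, F (ep e r) = p e r) ∧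
      ∀ u v w (t : Tr u v w) x, F (tp t x) = h t x
  cover : ∀ x : E, (∃ v, x = vtx v) ∨ (∃ u v, ∃ (e : Ed u v) (r : I), x = ep e r) ∨
    ∃ u v w, ∃ (t : Tr u v w) (y : I × I), x = tp t y

variable {E : Type} [TopologicalSpace E]

/-- the space of paths that end at `b` -/
def PE (b : E) : Type := {p : C(I, E) // p 1 = b}

instance (b : E) : TopologicalSpace (PE b) := inferInstanceAs (TopologicalSpace (Subtype _))

/-- the starting point -/
def ev0 (b : E) : C(PE b, E) := ⟨fun p => p.1 0, by fun_prop⟩

/-- sliding along the path -/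
def slide (b : E) : (ev0 b).Homotopy (.const _ b) where
  toFun x := x.2.1 x.1
  continuous_toFun := by fun_prop
  map_zero_left _ := rfl
  map_one_left p := p.2

/-- the affine map of the interval that fixes `1` and sends `0` to `s` -/
def shr (s t : I) : I := σ (σ s * σ t)

lemma continuous_shr : Continuous fun x : I × I => shr x.1 x.2 := by
  unfold shr
  fun_prop

instance (b : E) : ContractibleSpace (PE b) := by
  rw [contractible_iff_id_nullhomotopic]
  refine ⟨⟨.const _ b, rfl⟩, ⟨⟨⟨fun x => ⟨⟨fun t => x.2.1 (shr x.1 t), ?_⟩, ?_⟩, ?_⟩, ?_, ?_⟩⟩⟩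
  · exact x.2.1.continuous.comp (continuous_shr.comp (Continuous.prodMk_right x.1))
  · simpa [shr] using x.2.2
  · refine Continuous.subtype_mk (ContinuousMap.continuous_of_continuous_uncurry _ ?_) _
    change Continuous fun y : (I × PE b) × I => y.1.2.1 (shr y.1.1 y.2)
    have h1 : Continuous fun y : (I × PE b) × I => shr y.1.1 y.2 :=
      continuous_shr.comp (f := fun y : (I × PE b) × I => (y.1.1, y.2)) (by fun_prop)
    have h2 : Continuous fun y : (I × PE b) × I => y.1.2.1 :=
      continuous_subtype_val.comp (by fun_prop)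
    exact h2.eval h1
  · intro p
    apply Subtype.ext
    ext t
    simp [shr]
  · intro p
    apply Subtype.ext
    ext t
    simpa [shr] using p.2

/-- a path of paths, seen in the other direction -/
def flipP {x y : E} {p q : Path x y} (η : Path p q) :
    Path (ContinuousMap.const I x) (ContinuousMap.const I y) where
  toFun r := ⟨fun s => η s r, by fun_prop⟩
  continuous_toFun := ContinuousMap.continuous_of_continuous_uncurry _ (by
    change Continuous fun y : I × I => η y.2 y.1
    fun_prop)
  source' := by ext s; simp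
  target' := by ext s; simp

lemma flipP_apply {x y : E} {p q : Path x y} (η : Path p q) (r s : I) : flipP η r s = η s r := rfl

theorem Tri2.contractible (K : Tri2 E) (b : E) (γ : ∀ v, Path (K.vtx v) b)
    (hγ : ∀ u v (e : K.Ed u v), ((K.ep e).trans (γ v)).Homotopic (γ u))
    (hcob : ∀ (A : Type) [CommGroup A] (o : ∀ u v w, K.Tr u v w → A),
      ∃ x : ∀ u v, K.Ed u v → A, ∀ u v w (t : K.Tr u v w),
        x u v (K.ea t) * x v w (K.eb t) = x u w (K.ec t) * o u v w t) :
    ContractibleSpace E := by
  -- a map to the path space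
  let g : K.V → PE b := fun v => ⟨(γ v).toContinuousMap, (γ v).target⟩
  let σe : ∀ {u v}, K.Ed u v → Path (g u) (g v) := fun _ => PathConnectedSpace.somePath _ _
  let ht : ∀ {u v w} (t : K.Tr u v w),
      ((σe (K.ea t)).trans (σe (K.eb t))).Homotopy (σe (K.ec t)) :=
    fun _ => (SimplyConnectedSpace.paths_homotopic _ _).some
  obtain ⟨F, hFv, hFe, hFt⟩ := K.univ (PE b) g σe ht
  have hg0 : ∀ v, K.vtx v = ev0 b (g v) := fun v => (γ v).source.symm
  let e' : ∀ {u v}, K.Ed u v → Path (K.vtx u) (K.vtx v) := fun e =>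
    ((σe e).map (ev0 b).continuous).cast (hg0 _) (hg0 _)
  have he' : ∀ u v (e : K.Ed u v), (K.ep e).Homotopic (e' e) := by
    intro u v e
    have h1 := (Path.Homotopic.map_trans_evalAt (slide b) (σe e)).pathCast (hg0 u)
      (rfl : b = ContinuousMap.const (PE b) b (g v))
    have h2 : ((e' e).trans (γ v)).Homotopic ((γ u).trans (Path.refl b)) := by
      convert h1 using 1
      · ext t
        simp only [Path.cast_coe, Path.trans_apply]
        split_ifs <;> rfl
      · ext t
        simp only [Path.cast_coe, Path.trans_apply]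
        split_ifs <;> rfl
    have h3 := (hγ u v e).trans (h2.trans (Path.Homotopic.trans_refl _)).symm
    rw [← Path.Homotopic.Quotient.eq] at h3 ⊢
    exact trans_right_cancel (q := Path.Homotopic.Quotient.mk (γ v)) h3
  let η0 : ∀ {u v} (e : K.Ed u v), Path (K.ep e) (e' e) := fun e => toPP (he' _ _ e).some
  let κ : ∀ {u v w} (t : K.Tr u v w), Path ((e' (K.ea t)).trans (e' (K.eb t))) (e' (K.ec t)) :=
    fun {u v w} t => toPP ((((ht t).map (ev0 b)).pathCast (hg0 u) (hg0 w)).cast
      (by
        ext s
        simp only [Path.cast_coe, Path.map_coe, Function.comp_apply, Path.trans_apply]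
        split_ifs <;> rfl) rfl)
  have hκ : ∀ u v w (t : K.Tr u v w) s r, κ t s r = ev0 b (ht t (s, r)) := fun _ _ _ _ _ _ => rfl
  -- kill the obstruction
  obtain ⟨x, hx⟩ := hcob (LG (Path.refl b)) fun u v w t =>
    cl2 (γ u) (γ w) (toPP (K.tp t)) * cl2 (γ u) (γ w) (η0 (K.ec t)) *
      (cl2 (γ u) (γ w) (star (η0 (K.ea t)) (η0 (K.eb t))) * cl2 (γ u) (γ w) (κ t))⁻¹
  choose ξ hξ using fun u v (e : K.Ed u v) => cl2_surj (γ u) (γ v) (hγ u v e) (x u v e)
  let η : ∀ {u v} (e : K.Ed u v), Path (K.ep e) (e' e) := fun e => (ξ _ _ e).trans (η0 e)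
  have hsq : ∀ u v w (t : K.Tr u v w), ((toPP (K.tp t)).trans (η (K.ec t))).Homotopic
      ((star (η (K.ea t)) (η (K.eb t))).trans (κ t)) := by
    intro u v w t
    have hab : (((K.ep (K.ea t)).trans (K.ep (K.eb t))).trans (γ w)).Homotopic (γ u) :=
      (Path.Homotopic.hcomp ⟨K.tp t⟩ (.refl _)).trans (hγ _ _ _)
    apply cl2_inj (γ u) (γ w) hab
    simp only [η, star_trans, cl2_trans]
    rw [cl2_star (γ u) (γ v) (γ w) (hγ _ _ _) (hγ _ _ _), hξ, hξ, hξ, hx]
    simp only [mul_assoc, inv_mul_cancel, mul_one]
    rw [mul_left_comm]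
  choose S hS0 hS1 hSl hSr using fun u v w (t : K.Tr u v w) => exists_square _ _ _ _ (hsq u v w t)
  -- the homotopy from the identity to the map that factors through the path space
  let hH : ∀ {u v w} (t : K.Tr u v w),
      ((flipP (η (K.ea t))).trans (flipP (η (K.eb t)))).Homotopy (flipP (η (K.ec t))) :=
    fun {u v w} t =>
      { toFun := fun y => ⟨fun s => S u v w t (s, y.1) y.2, by fun_prop⟩
        continuous_toFun := ContinuousMap.continuous_of_continuous_uncurry _ (by
          change Continuous fun y : (I × I) × I => S u v w t (y.2, y.1.1) y.1.2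
          fun_prop)
        map_zero_left := fun r => by
          ext s
          simp only [ContinuousMap.coe_mk, hSl, star_apply, Path.coe_toContinuousMap,
            Path.trans_apply]
          split_ifs <;> rfl
        map_one_left := fun r => by
          ext s
          simp only [ContinuousMap.coe_mk, hSr, Path.coe_toContinuousMap, flipP_apply]
        prop' := fun s r hr => by
          ext s'
          rcases hr with rfl | rfl
          · simp
          · simp }
  obtain ⟨H, hHv, hHe, hHt⟩ := K.univ C(I, E) (fun v => .const I (K.vtx v))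
    (fun e => flipP (η e)) hH
  have hhom : (ContinuousMap.id E).Homotopic ((ev0 b).comp F) := by
    refine ⟨⟨⟨fun y => H y.2 y.1, by fun_prop⟩, fun y => ?_, fun y => ?_⟩⟩
    · change H y 0 = y
      rcases K.cover y with ⟨v, rfl⟩ | ⟨u, v, e, r, rfl⟩ | ⟨u, v, w, t, ⟨s, r⟩, rfl⟩
      · rw [hHv]; rfl
      · rw [hHe, flipP_apply, Path.source]
      · rw [hHt]
        change S u v w t (0, s) r = _
        rw [hS0, toPP_apply]
    · change H y 1 = ev0 b (F y)
      rcases K.cover y with ⟨v, rfl⟩ | ⟨u, v, e, r, rfl⟩ | ⟨u, v, w, t, ⟨s, r⟩, rfl⟩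
      · rw [hHv, hFv]; exact hg0 v
      · rw [hHe, flipP_apply, Path.target, hFe]; rfl
      · rw [hHt, hFt]
        change S u v w t (1, s) r = _
        rw [hS1, hκ u v w t]
  rw [contractible_iff_id_nullhomotopic]
  exact ⟨b, hhom.trans (Homotopic.comp ⟨slide b⟩ (.refl F))⟩

end Crest.Agent.Lib.TwoComplex
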