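import Mathlib

/-! Tools on path spaces: filling a square, whiskering, and an abelian-group valued class of the
paths in path spaces (the second homotopy group, without base point problems). -/

set_option autoImplicit false

noncomputable section

namespace Crest.Agent.Lib.TwoComplex

open unitInterval Set Topology

/-! ### Filling a square -/

section Square

variable {Z : Type*} [TopologicalSpace Z]

/-- the tent function -/
def tent (y : ℝ) : ℝ := min (2 * y) (2 - 2 * y)

lemma continuous_tent : Continuous tent := by unfold tent; fun_prop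

/-- A map of the square onto itself which collapses the sides `y = 0` and `y = 1`. -/
def sqMap : C(I × I, I × I) where
  toFun x :=
    (⟨x.2 + ((x.1 : ℝ) - 1 / 2) * tent x.2, by
        obtain ⟨⟨w, hw0, hw1⟩, ⟨y, hy0, hy1⟩⟩ := x
        simp only [tent]
        rcases le_total (2 * y) (2 - 2 * y) with h | h
        · rw [min_eq_left h]; constructor <;> nlinarith
        · rw [min_eq_right h]; constructor <;> nlinarith⟩,
     ⟨x.2 - ((x.1 : ℝ) - 1 / 2) * tent x.2, by
        obtain ⟨⟨w, hw0, hw1⟩, ⟨y, hy0, hy1⟩⟩ := x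
        simp only [tent]
        rcases le_total (2 * y) (2 - 2 * y) with h | h
        · rw [min_eq_left h]; constructor <;> nlinarith
        · rw [min_eq_right h]; constructor <;> nlinarith⟩)
  continuous_toFun := by
    have := continuous_tent
    fun_prop

lemma sqMap_surjective : Function.Surjective sqMap := by
  rintro ⟨⟨s, hs0, hs1⟩, ⟨u, hu0, hu1⟩⟩
  have hy : (s + u) / 2 ∈ I := ⟨by linarith, by linarith⟩
  by_cases h0 : tent ((s + u) / 2) = 0
  · refine ⟨(0, ⟨_, hy⟩), ?_⟩
    have hsu : s = u := by
      simp only [tent] at h0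
      rcases le_total (2 * ((s + u) / 2)) (2 - 2 * ((s + u) / 2)) with h | h
      · rw [min_eq_left h] at h0; linarith
      · rw [min_eq_right h] at h0; linarith
    ext
    · simp only [sqMap, ContinuousMap.coe_mk, h0]; linarith
    · simp only [sqMap, ContinuousMap.coe_mk, h0]; linarith
  · have hle : |s - u| ≤ tent ((s + u) / 2) := by
      simp only [tent]
      rw [abs_le]
      rcases le_total (2 * ((s + u) / 2)) (2 - 2 * ((s + u) / 2)) with h | h
      · rw [min_eq_left h]; constructor <;> linarith
      · rw [min_eq_right h]; constructor <;> linarith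
    have hpos : 0 < tent ((s + u) / 2) := lt_of_le_of_ne ((abs_nonneg _).trans hle) (Ne.symm h0)
    rw [abs_le] at hle
    have hw : 1 / 2 + (s - u) / (2 * tent ((s + u) / 2)) ∈ I := by
      constructor
      · have : -(1 / 2) ≤ (s - u) / (2 * tent ((s + u) / 2)) := by
          rw [le_div_iff₀ (by positivity)]; linarith
        linarith
      · have : (s - u) / (2 * tent ((s + u) / 2)) ≤ 1 / 2 := by
          rw [div_le_iff₀ (by positivity)]; linarith
        linarith
    refine ⟨(⟨_, hw⟩, ⟨_, hy⟩), ?_⟩
    ext
    · simp only [sqMap, ContinuousMap.coe_mk]; field_simp; ring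
    · simp only [sqMap, ContinuousMap.coe_mk]; field_simp; ring

lemma isQuotientMap_sqMap : IsQuotientMap sqMap :=
  sqMap.continuous.isClosedMap.isQuotientMap sqMap.continuous sqMap_surjective

lemma sqMap_eq {x x' : I × I} (h : sqMap x = sqMap x') : x = x' ∨ (x.2 = 0 ∧ x'.2 = 0) ∨
    (x.2 = 1 ∧ x'.2 = 1) := by
  obtain ⟨⟨w, hw0, hw1⟩, ⟨y, hy0, hy1⟩⟩ := x
  obtain ⟨⟨w', hw0', hw1'⟩, ⟨y', hy0', hy1'⟩⟩ := x'
  have h1 : y + (w - 1 / 2) * tent y = y' + (w' - 1 / 2) * tent y' :=
    congrArg (fun p : I × I => (p.1 : ℝ)) h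
  have h2 : y - (w - 1 / 2) * tent y = y' - (w' - 1 / 2) * tent y' :=
    congrArg (fun p : I × I => (p.2 : ℝ)) h
  obtain rfl : y = y' := by linarith
  by_cases h0 : tent y = 0
  · right
    simp only [tent] at h0
    rcases le_total (2 * y) (2 - 2 * y) with h | h
    · rw [min_eq_left h] at h0
      left
      constructor <;> (apply Subtype.ext; simp only [Icc.coe_zero]; linarith)
    · rw [min_eq_right h] at h0
      right
      constructor <;> (apply Subtype.ext; simp only [Icc.coe_one]; linarith)
  · left
    have h3 : (w - w') * tent y = 0 := by linarith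
    obtain rfl : w = w' := by
      rcases mul_eq_zero.mp h3 with h | h
      · linarith
      · exact absurd h h0
    rfl

/-- A square whose boundary commutes up to homotopy can be filled. -/
theorem exists_square {x0 x1 y0 y1 : Z} (bot : Path x0 x1) (top : Path y0 y1) (left : Path x0 y0)
    (right : Path x1 y1) (h : (bot.trans right).Homotopic (left.trans top)) :
    ∃ S : C(I × I, Z), (∀ u, S (0, u) = bot u) ∧ (∀ u, S (1, u) = top u) ∧
      (∀ s, S (s, 0) = left s) ∧ ∀ s, S (s, 1) = right s := by
  obtain ⟨K⟩ := h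
  have hf : Function.FactorsThrough (K.toContinuousMap) sqMap := by
    intro x x' hx
    rcases sqMap_eq hx with rfl | ⟨h1, h2⟩ | ⟨h1, h2⟩
    · rfl
    · obtain ⟨w, y⟩ := x
      obtain ⟨w', y'⟩ := x'
      simp only at h1 h2
      subst h1 h2
      exact (K.source w).trans (K.source w').symm
    · obtain ⟨w, y⟩ := x
      obtain ⟨w', y'⟩ := x'
      simp only at h1 h2
      subst h1 h2
      exact (K.target w).trans (K.target w').symm
  have hS : ∀ x, isQuotientMap_sqMap.lift K.toContinuousMap hf (sqMap x) = K x := fun x =>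
    congr($(isQuotientMap_sqMap.lift_comp K.toContinuousMap hf) x)
  have hlo : ∀ u : I, (u : ℝ) / 2 ∈ I := fun u => ⟨by linarith [u.2.1], by linarith [u.2.2]⟩
  have hhi : ∀ u : I, (1 + (u : ℝ)) / 2 ∈ I := fun u => ⟨by linarith [u.2.1], by linarith [u.2.2]⟩
  have tlo : ∀ u : I, tent ((u : ℝ) / 2) = u := fun u => by
    simp only [tent]; rw [min_eq_left (by linarith [u.2.2])]; ring
  have thi : ∀ u : I, tent ((1 + (u : ℝ)) / 2) = 1 - u := fun u => by
    simp only [tent]; rw [min_eq_right (by linarith [u.2.1])]; ring
  have plo : ∀ {a b c : Z} (p : Path a b) (q : Path b c) (u : I),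
      (p.trans q) ⟨_, hlo u⟩ = p u := by
    intro a b c p q u
    rw [Path.trans_apply, dif_pos (by simp only; linarith [u.2.2])]
    congr 1
    apply Subtype.ext
    simp only
    ring
  have phi : ∀ {a b c : Z} (p : Path a b) (q : Path b c) (u : I),
      (p.trans q) ⟨_, hhi u⟩ = q u := by
    intro a b c p q u
    rw [Path.trans_apply]
    split_ifs with hu
    · have hu0 : u = 0 := by
        apply Subtype.ext
        simp only at hu
        simp only [Icc.coe_zero]
        linarith [u.2.1]
      subst hu0
      refine Eq.trans (congrArg p (Subtype.ext ?_ : _ = (1 : I))) (p.target.trans q.source.symm)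
      simp
    · congr 1
      apply Subtype.ext
      simp only
      ring
  refine ⟨isQuotientMap_sqMap.lift K.toContinuousMap hf, fun u => ?_, fun u => ?_, fun u => ?_,
    fun u => ?_⟩
  · have e : ((0, u) : I × I) = sqMap (0, ⟨_, hlo u⟩) := by
      ext <;> simp only [sqMap, ContinuousMap.coe_mk, tlo, Icc.coe_zero] <;> ring
    rw [e, hS, ← plo bot right u]
    exact K.apply_zero _
  · have e : ((1, u) : I × I) = sqMap (1, ⟨_, hhi u⟩) := by
      ext <;> simp only [sqMap, ContinuousMap.coe_mk, thi, Icc.coe_one] <;> ring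
    rw [e, hS, ← phi left top u]
    exact K.apply_one _
  · have e : ((u, 0) : I × I) = sqMap (1, ⟨_, hlo u⟩) := by
      ext <;> simp only [sqMap, ContinuousMap.coe_mk, tlo, Icc.coe_zero, Icc.coe_one] <;> ring
    rw [e, hS, ← plo left top u]
    exact K.apply_one _
  · have e : ((u, 1) : I × I) = sqMap (0, ⟨_, hhi u⟩) := by
      ext <;> simp only [sqMap, ContinuousMap.coe_mk, thi, Icc.coe_zero, Icc.coe_one] <;> ring
    rw [e, hS, ← phi bot right u]
    exact K.apply_zero _

end Square

/-! ### The class of a path in the fundamental group at a fixed base point -/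

section Cl

variable {Z Y : Type*} [TopologicalSpace Z] [TopologicalSpace Y]

open Path.Homotopic

local notation "qmk" => Path.Homotopic.Quotient.mk
local notation "qeq" => Path.Homotopic.Quotient.eq

/-- the group of loop classes -/
def LG (z0 : Z) : Type _ := Path.Homotopic.Quotient z0 z0

instance (z0 : Z) : Mul (LG z0) := ⟨Path.Homotopic.Quotient.trans⟩
instance (z0 : Z) : One (LG z0) := ⟨Path.Homotopic.Quotient.refl z0⟩
instance (z0 : Z) : Inv (LG z0) := ⟨Path.Homotopic.Quotient.symm⟩

instance (z0 : Z) : Group (LG z0) :=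
  Group.ofLeftAxioms Path.Homotopic.Quotient.trans_assoc Path.Homotopic.Quotient.refl_trans
    Path.Homotopic.Quotient.symm_trans

lemma symm_trans_cancel {a b c : Z} (p : Path.Homotopic.Quotient a b)
    (q : Path.Homotopic.Quotient a c) : p.trans (p.symm.trans q) = q := by
  rw [← Quotient.trans_assoc, Quotient.trans_symm, Quotient.refl_trans]

lemma trans_symm_cancel {a b c : Z} (p : Path.Homotopic.Quotient a b)
    (q : Path.Homotopic.Quotient b c) : p.symm.trans (p.trans q) = q := by
  rw [← Quotient.trans_assoc, Quotient.symm_trans, Quotient.refl_trans]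

lemma trans_left_cancel {a b c : Z} {p : Path.Homotopic.Quotient a b}
    {q q' : Path.Homotopic.Quotient b c} (h : p.trans q = p.trans q') : q = q' := by
  rw [← trans_symm_cancel p q, h, trans_symm_cancel]

lemma trans_right_cancel {a b c : Z} {p p' : Path.Homotopic.Quotient a b}
    {q : Path.Homotopic.Quotient b c} (h : p.trans q = p'.trans q) : p = p' := by
  rw [← Quotient.trans_refl p, ← Quotient.trans_symm q, ← Quotient.trans_assoc, h,
    Quotient.trans_assoc, Quotient.trans_symm, Quotient.trans_refl]

open Classical in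
/-- The class of a path: its ends are joined to the base point by chosen paths. -/
def cl (z0 : Z) {z z' : Z} (p : Path z z') : LG z0 :=
  if h : Joined z0 z then
    (qmk h.somePath).trans ((qmk p).trans
      (qmk (Joined.somePath (h.trans ⟨p⟩))).symm)
  else 1

variable (z0 : Z)

lemma cl_congr {z z' : Z} {p q : Path z z'} (h : p.Homotopic q) : cl z0 p = cl z0 q := by
  unfold cl
  split_ifs
  · rw [(qeq).mpr h]
  · rfl

lemma cl_trans {z z' z'' : Z} (p : Path z z') (q : Path z' z'') :
    cl z0 (p.trans q) = cl z0 p * cl z0 q := by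
  unfold cl
  by_cases h : Joined z0 z
  · have h' : Joined z0 z' := h.trans ⟨p⟩
    rw [dif_pos h, dif_pos h, dif_pos h']
    change _ = Path.Homotopic.Quotient.trans _ _
    simp only [Quotient.mk_trans, Quotient.trans_assoc, trans_symm_cancel]
  · have h' : ¬ Joined z0 z' := fun h' => h (h'.trans ⟨p.symm⟩)
    rw [dif_neg h, dif_neg h, dif_neg h', one_mul]

lemma cl_refl (z : Z) : cl z0 (Path.refl z) = 1 := by
  have h := cl_trans z0 (Path.refl z) (Path.refl z)
  rw [Path.refl_trans_refl] at h
  exact left_eq_mul.mp h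

lemma cl_symm {z z' : Z} (p : Path z z') : cl z0 p.symm = (cl z0 p)⁻¹ := by
  have h := cl_trans z0 p.symm p
  rw [cl_congr z0 (Path.Homotopic.symm_trans p), cl_refl] at h
  exact eq_inv_of_mul_eq_one_left h.symm

lemma cl_inj {z z' : Z} (hz : Joined z0 z) {p q : Path z z'} (h : cl z0 p = cl z0 q) :
    p.Homotopic q := by
  unfold cl at h
  rw [dif_pos hz, dif_pos hz] at h
  exact (qeq).mp (trans_right_cancel (trans_left_cancel h))

lemma cl_surj {z : Z} (hz : Joined z0 z) (a : LG z0) : ∃ p : Path z z, cl z0 p = a := by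
  obtain ⟨a, rfl⟩ := Path.Homotopic.Quotient.mk_surjective a
  refine ⟨hz.somePath.symm.trans (a.trans hz.somePath), ?_⟩
  unfold cl
  rw [dif_pos hz]
  simp only [Quotient.mk_trans, Quotient.mk_symm, Quotient.trans_assoc, symm_trans_cancel,
    Quotient.trans_symm, Quotient.trans_refl]

lemma cl_ext {z z' w w' : Z} {p : Path z z'} {q : Path w w'} (h : ∀ t, p t = q t) :
    cl z0 p = cl z0 q := by
  obtain rfl : z = w := by rw [← p.source, h, q.source]
  obtain rfl : z' = w' := by rw [← p.target, h, q.target]
  obtain rfl : p = q := Path.ext (funext h)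
  rfl

lemma cl_homotopy {f g : C(Y, Z)} (F : f.Homotopy g) {y y' : Y} (p : Path y y') :
    cl z0 (p.map f.continuous) * cl z0 (F.evalAt y') =
      cl z0 (F.evalAt y) * cl z0 (p.map g.continuous) := by
  rw [← cl_trans, ← cl_trans]
  exact cl_congr z0 (Path.Homotopic.map_trans_evalAt F p)

lemma homotopic_of_map {f : C(Y, Y)} (hf : f.Homotopic (.id Y)) {y y' : Y} {p q : Path y y'}
    (h : (p.map f.continuous).Homotopic (q.map f.continuous)) : p.Homotopic q := by
  obtain ⟨F⟩ := hf
  have h1 := (qeq).mpr (Path.Homotopic.map_trans_evalAt F p)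
  have h2 := (qeq).mpr (Path.Homotopic.map_trans_evalAt F q)
  simp only [Quotient.mk_trans] at h1 h2
  rw [(qeq).mpr h, h2] at h1
  exact ((qeq).mp (trans_left_cancel h1)).symm

end Cl

end Crest.Agent.Lib.TwoComplex
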