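import Crest.Agent.Lib.TwoComplex.PathClass

/-! Whiskering in path spaces; the class of a path of paths in the (commutative) fundamental group
of the loop space. -/

set_option autoImplicit false

noncomputable section

namespace Crest.Agent.Lib.TwoComplex

open unitInterval Set Topology ContinuousMap

variable {E Y : Type*} [TopologicalSpace E] [TopologicalSpace Y]

/-- a homotopy of paths as a path in the path space -/
def toPP {x y : E} {p q : Path x y} (F : p.Homotopy q) : Path p q where
  toFun := F.eval
  continuous_toFun := Path.continuous_uncurry_iff.mp F.continuous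
  source' := F.eval_zero
  target' := F.eval_one

@[simp] lemma toPP_apply {x y : E} {p q : Path x y} (F : p.Homotopy q) (s t : I) :
    toPP F s t = F (s, t) := rfl

lemma joined_of_homotopic {x y : E} {p q : Path x y} (h : p.Homotopic q) : Joined p q :=
  ⟨toPP h.some⟩

/-- concatenation of continuous families of paths -/
def tr {x y z : E} (P : C(Y, Path x y)) (Q : C(Y, Path y z)) : C(Y, Path x z) :=
  ⟨fun w => (P w).trans (Q w), P.continuous.path_trans Q.continuous⟩

lemma tr_congr {x y z : E} {P P' : C(Y, Path x y)} {Q Q' : C(Y, Path y z)}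
    (hP : P.Homotopic P') (hQ : Q.Homotopic Q') : (tr P Q).Homotopic (tr P' Q') := by
  obtain ⟨F⟩ := hP
  obtain ⟨G⟩ := hQ
  exact ⟨⟨⟨fun w => (F w).trans (G w), F.continuous.path_trans G.continuous⟩,
    fun w => by simp [tr], fun w => by simp [tr]⟩⟩

lemma const_congr {x y : E} {p q : Path x y} (h : p.Homotopic q) :
    (ContinuousMap.const Y p).Homotopic (.const Y q) :=
  ⟨(toPP h.some).toHomotopyConst⟩

lemma homotopic_reparam {x y : E} (P Q : C(Y, Path x y)) (ρ : I → I) (hρ : Continuous ρ)
    (h0 : ρ 0 = 0) (h1 : ρ 1 = 1) (hQ : ∀ w, Q w = (P w).reparam ρ hρ h0 h1) :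
    P.Homotopic Q := by
  refine ⟨⟨⟨fun w => (Path.Homotopy.reparam (P w.2) ρ hρ h0 h1).eval w.1, ?_⟩,
    fun w => by simp, fun w => by simp [hQ]⟩⟩
  apply Path.continuous_uncurry_iff.mp
  change Continuous fun v : (I × Y) × I => P v.1.2 ⟨σ v.1.1 * v.2 + v.1.1 * ρ v.2, _⟩
  fun_prop

lemma tr_assoc {x y z w : E} (P : C(Y, Path x y)) (Q : C(Y, Path y z)) (R : C(Y, Path z w)) :
    (tr (tr P Q) R).Homotopic (tr P (tr Q R)) :=
  (homotopic_reparam _ _ _ _ _ _ fun v => Path.Homotopy.trans_assoc_reparam (P v) (Q v) (R v)).symm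

lemma tr_refl {x y : E} (P : C(Y, Path x y)) : (tr P (.const Y (.refl y))).Homotopic P :=
  (homotopic_reparam _ _ _ _ _ _ fun v => Path.Homotopy.trans_refl_reparam (P v)).symm

lemma refl_tr {x y : E} (P : C(Y, Path x y)) : (tr (.const Y (.refl x)) P).Homotopic P := by
  let sy : ∀ {a b : E}, C(Path a b, Path b a) := ⟨Path.symm, Path.continuous_symm⟩
  have h := (Homotopic.refl (sy (a := y) (b := x))).comp (tr_refl (sy.comp P))
  convert h using 1
  · ext1 w
    simp [tr, sy]
  · ext1 w
    simp [sy]

/-- whiskering on both sides -/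
def wh {x y x' y' : E} (k : Path x' x) (l : Path y y') : C(Path x y, Path x' y') :=
  tr (.const _ k) (tr (.id _) (.const _ l))

lemma wh_apply {x y x' y' : E} (k : Path x' x) (l : Path y y') (p : Path x y) :
    wh k l p = k.trans (p.trans l) := rfl

lemma wh_congr {x y x' y' : E} {k k' : Path x' x} {l l' : Path y y'} (hk : k.Homotopic k')
    (hl : l.Homotopic l') : (wh k l).Homotopic (wh k' l') :=
  tr_congr (const_congr hk) (tr_congr (.refl _) (const_congr hl))

lemma wh_refl (x y : E) : (wh (.refl x) (.refl y)).Homotopic (.id _) :=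
  (refl_tr _).trans (tr_refl _)

/-- whiskering on the right -/
def whR {x y z : E} (q : Path y z) : C(Path x y, Path x z) := tr (.id _) (.const _ q)

/-- whiskering on the left -/
def whL {x y z : E} (p : Path x y) : C(Path y z, Path x z) := tr (.const _ p) (.id _)

lemma wh_whR {x y z x' z' : E} (k : Path x' x) (q : Path y z) (l : Path z z') :
    ((wh k l).comp (whR q)).Homotopic (wh k (q.trans l)) :=
  tr_congr (.refl (.const _ k)) (tr_assoc (.id _) (.const _ q) (.const _ l))

lemma wh_whL {x y z x' z' : E} (k : Path x' x) (p : Path x y) (l : Path z z') :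
    ((wh k l).comp (whL p)).Homotopic (wh (k.trans p) l) :=
  (tr_congr (.refl (.const _ k)) (tr_assoc (.const _ p) (.id _) (.const _ l))).trans
    (tr_assoc (.const _ k) (.const _ p) (tr (.id _) (.const _ l))).symm

lemma wh_wh {x y x' y' x'' y'' : E} (k : Path x' x) (l : Path y y') (k' : Path x'' x')
    (l' : Path y' y'') : ((wh k' l').comp (wh k l)).Homotopic (wh (k'.trans k) (l.trans l')) :=
  (Homotopic.comp (wh_whL k' k l') (.refl (whR l))).trans (wh_whR (k'.trans k) l l')

/-- horizontal composition of paths of paths -/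
def star {x y z : E} {p p' : Path x y} {q q' : Path y z} (f : Path p p') (g : Path q q') :
    Path (p.trans q) (p'.trans q') :=
  (f.prod g).map Path.continuous_trans

lemma star_apply {x y z : E} {p p' : Path x y} {q q' : Path y z} (f : Path p p') (g : Path q q')
    (s : I) : star f g s = (f s).trans (g s) := rfl

lemma star_trans {x y z : E} {p p' p'' : Path x y} {q q' q'' : Path y z} (f : Path p p')
    (f' : Path p' p'') (g : Path q q') (g' : Path q' q'') :
    star (f.trans f') (g.trans g') = (star f g).trans (star f' g') := by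
  unfold star
  rw [← Path.trans_prod_eq_prod_trans, Path.map_trans]

lemma star_congr {x y z : E} {p p' : Path x y} {q q' : Path y z} {f f' : Path p p'}
    {g g' : Path q q'} (hf : f.Homotopic f') (hg : g.Homotopic g') :
    (star f g).Homotopic (star f' g') :=
  Path.Homotopic.map (f := ⟨_, Path.continuous_trans⟩)
    ⟨Path.Homotopic.prodHomotopy hf.some hg.some⟩

/-- a path of paths whiskered on the right -/
def mapR {x y z : E} {p p' : Path x y} (f : Path p p') (q : Path y z) :
    Path (p.trans q) (p'.trans q) := f.map (whR q).continuous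

/-- a path of paths whiskered on the left -/
def mapL {x y z : E} (p : Path x y) {q q' : Path y z} (g : Path q q') :
    Path (p.trans q) (p.trans q') := g.map (whL p).continuous

lemma star_loops {x y z : E} {p : Path x y} {q : Path y z} (f : Path p p) (g : Path q q) :
    (star f g).Homotopic ((mapR f q).trans (mapL p g)) ∧
    (star f g).Homotopic ((mapL p g).trans (mapR f q)) := by
  constructor
  · have h := star_congr (Path.Homotopic.trans_refl f).symm (Path.Homotopic.refl_trans g).symm
    rw [star_trans] at h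
    exact h
  · have h := star_congr (Path.Homotopic.refl_trans f).symm (Path.Homotopic.trans_refl g).symm
    rw [star_trans] at h
    exact h

/-- Eckmann-Hilton -/
lemma lg_comm (b : E) (u v : LG (Path.refl b)) : u * v = v * u := by
  let r := Path.refl b
  obtain ⟨F⟩ : (whR (x := b) r).Homotopic (.id _) := tr_refl _
  obtain ⟨G⟩ : (whL (z := b) r).Homotopic (.id _) := refl_tr _
  obtain ⟨f, hf⟩ := cl_surj r (Joined.refl r) ((cl r (F.evalAt r))⁻¹ * u * cl r (F.evalAt r))
  obtain ⟨g, hg⟩ := cl_surj r (Joined.refl r) ((cl r (G.evalAt r))⁻¹ * v * cl r (G.evalAt r))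
  have h1 := cl_homotopy r F f
  have h2 := cl_homotopy r G g
  have h1' : cl r (f.map (ContinuousMap.id _).continuous) = cl r f := cl_ext r fun _ => rfl
  have h2' : cl r (g.map (ContinuousMap.id _).continuous) = cl r g := cl_ext r fun _ => rfl
  rw [h1', hf, mul_assoc, mul_inv_cancel_left, mul_left_inj] at h1
  rw [h2', hg, mul_assoc, mul_inv_cancel_left, mul_left_inj] at h2
  obtain ⟨h3, h4⟩ := star_loops f g
  have h5 := cl_congr r (h3.symm.trans h4)
  have h6 : cl r (mapR f r) = u := h1
  have h7 : cl r (mapL r g) = v := h2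
  rwa [cl_trans, cl_trans, h6, h7] at h5

instance (b : E) : CommGroup (LG (Path.refl b)) :=
  { (inferInstance : Group (LG (Path.refl b))) with mul_comm := lg_comm b }

lemma cl_homotopic {b : E} {f g : C(Y, Path b b)} (h : f.Homotopic g) {y : Y} (p : Path y y) :
    cl (Path.refl b) (p.map f.continuous) = cl (Path.refl b) (p.map g.continuous) := by
  obtain ⟨F⟩ := h
  have h1 := cl_homotopy (Path.refl b) F p
  rwa [mul_comm, mul_right_inj] at h1

/-- The class of a path of paths from `x` to `y`, where `x` and `y` are joined to the base point `b`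
by `γ` and `δ`. -/
def cl2 {b x y : E} (γ : Path x b) (δ : Path y b) {p q : Path x y} (f : Path p q) :
    LG (Path.refl b) :=
  cl (Path.refl b) (f.map (wh γ.symm δ).continuous)

section

variable {b x y z : E} (γ : Path x b) (δ : Path y b) (ε : Path z b)

lemma cl2_congr {p q : Path x y} {f g : Path p q} (h : f.Homotopic g) : cl2 γ δ f = cl2 γ δ g :=
  cl_congr _ (h.map _)

lemma cl2_trans {p q r : Path x y} (f : Path p q) (g : Path q r) :
    cl2 γ δ (f.trans g) = cl2 γ δ f * cl2 γ δ g := by
  unfold cl2
  rw [Path.map_trans, cl_trans]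

lemma joined_wh {p : Path x y} (hp : (p.trans δ).Homotopic γ) :
    Joined (Path.refl b) (wh γ.symm δ p) :=
  joined_of_homotopic ((Path.Homotopic.symm_trans γ).symm.trans
    ((Path.Homotopic.refl γ.symm).hcomp hp.symm))

lemma wh_inv : ((wh γ δ.symm).comp (wh γ.symm δ)).Homotopic (.id _) :=
  (wh_wh _ _ _ _).trans ((wh_congr (Path.Homotopic.trans_symm γ)
    (Path.Homotopic.trans_symm δ)).trans (wh_refl _ _))

lemma wh_inv' : ((wh γ.symm δ).comp (wh γ δ.symm)).Homotopic (.id _) :=
  (wh_wh _ _ _ _).trans ((wh_congr (Path.Homotopic.symm_trans γ)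
    (Path.Homotopic.symm_trans δ)).trans (wh_refl _ _))

lemma cl2_inj {p q : Path x y} (hp : (p.trans δ).Homotopic γ) {f g : Path p q}
    (h : cl2 γ δ f = cl2 γ δ g) : f.Homotopic g :=
  homotopic_of_map (wh_inv γ δ) ((cl_inj _ (joined_wh γ δ hp) h).map (wh γ δ.symm))

lemma cl2_surj {p : Path x y} (hp : (p.trans δ).Homotopic γ) (a : LG (Path.refl b)) :
    ∃ f : Path p p, cl2 γ δ f = a := by
  obtain ⟨ζ, hζ⟩ := cl_surj _ (joined_wh γ δ hp) a
  obtain ⟨F⟩ := wh_inv γ δ
  let n : Path (wh γ δ.symm (wh γ.symm δ p)) p := F.evalAt p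
  refine ⟨n.symm.trans ((ζ.map (wh γ δ.symm).continuous).trans n), ?_⟩
  rw [cl2_trans, cl2_trans]
  have h1 : cl2 γ δ n.symm = (cl2 γ δ n)⁻¹ := by
    unfold cl2
    rw [← Path.map_symm, cl_symm]
  have h2 : cl2 γ δ (ζ.map (wh γ δ.symm).continuous) = a := by
    rw [← hζ]
    exact (cl_homotopic (wh_inv' γ δ) ζ).trans (cl_ext _ fun _ => rfl)
  rw [h1, h2, mul_comm a, inv_mul_cancel_left]

lemma cl2_star {p : Path x y} {q : Path y z} (hp : (p.trans δ).Homotopic γ)
    (hq : (q.trans ε).Homotopic δ) (f : Path p p) (g : Path q q) :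
    cl2 γ ε (star f g) = cl2 γ δ f * cl2 δ ε g := by
  rw [cl2_congr γ ε (star_loops f g).1, cl2_trans]
  congr 1
  · exact cl_homotopic ((wh_whR γ.symm q ε).trans (wh_congr (.refl _) hq)) f
  · refine cl_homotopic ((wh_whL γ.symm p ε).trans (wh_congr ?_ (.refl _))) g
    rw [← Path.Homotopic.Quotient.eq] at hp ⊢
    simp only [Path.Homotopic.Quotient.mk_trans, Path.Homotopic.Quotient.mk_symm] at hp ⊢
    apply trans_right_cancel (q := Path.Homotopic.Quotient.mk δ)
    rw [Path.Homotopic.Quotient.trans_assoc, hp, Path.Homotopic.Quotient.symm_trans,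
      Path.Homotopic.Quotient.symm_trans]

end

end Crest.Agent.Lib.TwoComplex
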